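import Vale.Agent.P280.S.H730.Transfer
import Vale.Agent.P280.S.H265.Grading

/-! P280 S, row E: the grading given by a coaction refines the grading by the degree. -/

open DirectSum Polynomial

namespace Vale.Agent.P280.S

variable {R : Type} [CommRing R] [Algebra ℂ R] {𝒜 : ℕ → Submodule ℂ R}

theorem refines_bi {e : ℕ} {φ : R →ₐ[ℂ] R[X]} (h : H265.IsCoaction 𝒜 e φ) :
    Refines 𝒜 (H265.bi 𝒜 φ) where
  le := fun _ _ => H265.bi_le
  ge := fun d r hr => by
    have h1 := h.one r
    rw [eval_eq_sum_range] at h1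
    rw [← h1]
    refine Submodule.sum_mem _ fun i _ => ?_
    rw [one_pow, mul_one]
    exact Submodule.mem_iSup_of_mem (i : ℤ) (H265.mem_bi_nat.2 ⟨h.mem d r hr i, h.co r i⟩)

end Vale.Agent.P280.S
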