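import Vale.Agent.P280.S.H730.Orbit
import Vale.Agent.P280.H812.X3Done

/-!
P280 S, row E: the one-parameter group acts on the tangent space at `x` by homotheties, so `X` is
homogeneous.
-/

open DirectSum Polynomial

namespace Vale.Agent.P280.S

variable {R : Type} [CommRing R] [Algebra ℂ R] {𝒜 : ℕ → Submodule ℂ R}
  {ℬ : ℕ × ℤ → Submodule ℂ R} [GradedAlgebra ℬ]

/-- All the tangent weights at the source `x` are equal to one. -/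
theorem weights_eq_one (hr : Refines 𝒜 ℬ) (hX : IsProjectiveManifold 𝒜)
    (hN : NefOnRationalCurves 𝒜) {x : R →ₐ[ℂ] ℂ} {J : Set R} {e : ℕ} (hx0 : NV 𝒜 x)
    (hmin : ∀ (n : ℕ) (y : R →ₐ[ℂ] ℂ), NV 𝒜 y → (∀ h ∈ J, y h = 0) → Ch 𝒜 ℂ n x y → e ≤ n)
    (hx : T.IsFixed ℬ x 0) (hpos : ∀ χ, T.TangentWeight ℬ x 0 χ → 0 < χ)
    (hC : ∀ (q : R →ₐ[ℂ] ℂ) (μ : ℤ), NV 𝒜 q → T.IsFixed ℬ q μ → ∃ (n : ℕ) (y : R →ₐ[ℂ] ℂ),
      (n : ℤ) + μ ≤ e ∧ NV 𝒜 y ∧ (∀ h ∈ J, y h = 0) ∧ Ch 𝒜 ℂ n q y)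
    {χ : ℤ} (hχ : T.TangentWeight ℬ x 0 χ) : χ = 1 := by
  have hX' := hr.isTorusManifold hX
  have hN' := hr.nef hN
  have hx0' : ¬ T.IsVertex ℬ x := fun h => hx0.not_isVertex (hr.isVertex.1 h)
  -- the largest weight
  have hfin : {χ : ℤ | T.TangentWeight ℬ x 0 χ}.Finite := by
    refine (T.finite_weights hX').subset fun χ hχ => ?_
    have h1 := (H587.tangentWeight_mem hX' hx0' hx hχ).2
    rwa [zero_add] at h1
  obtain ⟨a, ha, hmax⟩ := hfin.exists_maximal ⟨χ, hχ⟩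
  have hle : ∀ χ, T.TangentWeight ℬ x 0 χ → χ ≤ a := fun χ hχ =>
    (le_total χ a).elim id fun h => hmax hχ h
  have ha0 : 0 < a := hpos a ha
  have hs : T.IsSource ℬ (AddMonoidHom.id ℤ) x 0 a :=
    ⟨hx0', hx, fun χ hχ => ⟨hpos χ hχ, hle χ hχ⟩⟩
  obtain ⟨v, hv, hvw, hc⟩ := ha
  obtain ⟨D, hD, hDv⟩ := (H812.theoremI_full hX' hN' ha0 hs hx0' hx).2 a rfl v hv hvw
  -- a section of degree one which is moved
  have hne : ∃ m : ℤ, ∃ h ∈ ℬ (1, m), x (D h) ≠ 0 := by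
    by_contra hcon
    push Not at hcon
    obtain ⟨d, m, h, hh, hne⟩ := hc 0
    apply hne
    rw [zero_mul, zero_mul]
    exact H587.tangent_eq_zero hX' hv (fun m h hh => by rw [← hDv]; exact hcon m h hh) h
  obtain ⟨m1, h1, hh1, hne1⟩ := hne
  obtain ⟨k, q, hk, hq0, hq, hch⟩ := exists_orbit_chain hr hX hx0 hx ha0 hD hh1 hne1
  obtain ⟨n, y, hn, hy0, hy, hch'⟩ := hC q _ hq0 hq
  have h2 := hmin (k + n) y hy0 hy (hch.comp hch')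
  have h3 : a = 1 := by
    by_contra h4
    have h5 : 2 ≤ a := by omega
    have h6 : (1 : ℤ) ≤ k := by exact_mod_cast hk
    have h7 : (e : ℤ) ≤ k + n := by exact_mod_cast h2
    nlinarith
  have h4 := hle χ hχ
  have h5 := hpos χ hχ
  omega

/-- **Row E** : the grading makes `X` homogeneous. -/
theorem homogeneous_of_grading (hr : Refines 𝒜 ℬ) (hX : IsProjectiveManifold 𝒜)
    (hN : NefOnRationalCurves 𝒜) {x : R →ₐ[ℂ] ℂ} {J : Set R} {e : ℕ} (hx0 : NV 𝒜 x)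
    (hmin : ∀ (n : ℕ) (y : R →ₐ[ℂ] ℂ), NV 𝒜 y → (∀ h ∈ J, y h = 0) → Ch 𝒜 ℂ n x y → e ≤ n)
    (hx : T.IsFixed ℬ x 0) (hpos : ∀ χ, T.TangentWeight ℬ x 0 χ → 0 < χ)
    (hC : ∀ (q : R →ₐ[ℂ] ℂ) (μ : ℤ), NV 𝒜 q → T.IsFixed ℬ q μ → ∃ (n : ℕ) (y : R →ₐ[ℂ] ℂ),
      (n : ℤ) + μ ≤ e ∧ NV 𝒜 y ∧ (∀ h ∈ J, y h = 0) ∧ Ch 𝒜 ℂ n q y) :
    IsHomogeneousManifold 𝒜 ∧ IsTransitive 𝒜 := by
  have hx0' : ¬ T.IsVertex ℬ x := fun h => hx0.not_isVertex (hr.isVertex.1 h)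
  obtain ⟨h1, h2⟩ := H812.homothety_ne H812.rowG_all (hr.isTorusManifold hX) (hr.nef hN)
    (l := AddMonoidHom.id ℤ) (a := 1) one_ne_zero hx0' hx
    (fun χ hχ => weights_eq_one hr hX hN hx0 hmin hx hpos hC hχ)
  exact ⟨hr.homogeneous h1, hr.transitive h2⟩

end Vale.Agent.P280.S
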