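import Vale.Agent.P280.S.H730.Transfer
import Vale.Agent.P280.H939.Flow

/-!
P280 S, row E: the orbit of a fixed point under the flow of a field of positive weight is a curve
which ends at another fixed point.
-/

open DirectSum Polynomial

namespace Vale.Agent.P280.S

variable {R : Type} [CommRing R] [Algebra ℂ R] {𝒜 : ℕ → Submodule ℂ R}
  {ℬ : ℕ × ℤ → Submodule ℂ R}

/-- The coefficients of the flow of `D` at `x`. -/
noncomputable def fl (x : R →ₐ[ℂ] ℂ) (D : Derivation ℂ R R) (j : ℕ) : R →ₗ[ℂ] ℂ :=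
  ((j.factorial : ℂ)⁻¹) • x.toLinearMap.comp ((D : R →ₗ[ℂ] R) ^ j)

theorem fl_apply (x : R →ₐ[ℂ] ℂ) (D : Derivation ℂ R R) (j : ℕ) (h : R) :
    fl x D j h = (j.factorial : ℂ)⁻¹ * x ((⇑D)^[j] h) := by
  rw [fl, LinearMap.smul_apply, LinearMap.comp_apply, Module.End.pow_apply, smul_eq_mul]
  rfl

theorem fl_mul (x : R →ₐ[ℂ] ℂ) (D : Derivation ℂ R R) (j : ℕ) (a b : R) :
    fl x D j (a * b) =
      ∑ ij ∈ Finset.HasAntidiagonal.antidiagonal j, fl x D ij.1 a * fl x D ij.2 b := by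
  rw [fl_apply, H939.iterate_leibniz, map_sum, Finset.mul_sum]
  refine Finset.sum_congr rfl fun ij hij => ?_
  have hk := Finset.HasAntidiagonal.mem_antidiagonal.1 hij
  have h1 : (j.choose ij.1 : ℂ) = (j.factorial : ℂ) / ((ij.1.factorial : ℂ) * (ij.2.factorial)) := by
    rw [← hk, Nat.cast_add_choose]
  rw [fl_apply, fl_apply, map_nsmul, nsmul_eq_mul, map_mul, h1]
  have h2 : (j.factorial : ℂ) ≠ 0 := by exact_mod_cast j.factorial_ne_zero
  have h3 : (ij.1.factorial : ℂ) ≠ 0 := by exact_mod_cast ij.1.factorial_ne_zero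
  have h4 : (ij.2.factorial : ℂ) ≠ 0 := by exact_mod_cast ij.2.factorial_ne_zero
  field_simp

theorem iterate_mem {D : Derivation ℂ R R} {a : ℤ}
    (hD : ∀ (d : ℕ) (m : ℤ), ∀ h ∈ ℬ (d, m), D h ∈ ℬ (d, m - a)) (j : ℕ) {d : ℕ} {m : ℤ} {h : R}
    (hh : h ∈ ℬ (d, m)) : (⇑D)^[j] h ∈ ℬ (d, m - j * a) := by
  induction j with
  | zero => simpa using hh
  | succ j ih =>
    rw [Function.iterate_succ_apply']
    have h1 := hD d _ _ ih
    have h2 : m - j * a - a = m - ((j + 1 : ℕ) : ℤ) * a := by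
      push_cast
      ring
    rwa [h2] at h1

theorem fl_eq_zero {x : R →ₐ[ℂ] ℂ} (hx : T.IsFixed ℬ x 0) {D : Derivation ℂ R R} {a : ℤ}
    (hD : ∀ (d : ℕ) (m : ℤ), ∀ h ∈ ℬ (d, m), D h ∈ ℬ (d, m - a)) {j : ℕ} {d : ℕ} {m : ℤ} {h : R}
    (hh : h ∈ ℬ (d, m)) (hne : fl x D j h ≠ 0) : m = j * a := by
  rw [fl_apply] at hne
  have h1 := hx d _ _ (iterate_mem hD j hh) (right_ne_zero_of_mul hne)
  rw [smul_zero] at h1
  omega

/-- The orbit of `x` under the flow of `D`. -/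
theorem exists_orbit [GradedAlgebra ℬ] {x : R →ₐ[ℂ] ℂ} (hx : T.IsFixed ℬ x 0)
    {D : Derivation ℂ R R} {a : ℤ} (ha : 0 < a)
    (hD : ∀ (d : ℕ) (m : ℤ), ∀ h ∈ ℬ (d, m), D h ∈ ℬ (d, m - a)) :
    ∃ ψ : R →ₐ[ℂ] ℂ[X], ∀ (d : ℕ) (m : ℤ), ∀ h ∈ ℬ (d, m), ∀ j : ℕ,
      (ψ h).coeff j = fl x D j h := by
  have hdiv : ∀ j : ℕ, ((j * a : ℤ) / a).toNat = j := fun j => by
    rw [Int.mul_ediv_cancel _ ha.ne', Int.toNat_natCast]
  obtain ⟨ψ, hψ⟩ := T.exists_algHom ℬ (B := ℂ[X])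
    (fun i => (monomial (i.2 / a).toNat).comp (fl x D (i.2 / a).toNat)) (by
      change monomial ((0 : ℤ) / a).toNat (fl x D ((0 : ℤ) / a).toNat 1) = 1
      rw [Int.zero_ediv, Int.toNat_zero, fl_apply]
      simp) (by
      rintro ⟨d, m⟩ ⟨d', m'⟩ h hh h' hh'
      change monomial ((m + m') / a).toNat (fl x D ((m + m') / a).toNat (h * h')) =
        monomial (m / a).toNat (fl x D (m / a).toNat h) *
          monomial (m' / a).toNat (fl x D (m' / a).toNat h')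
      by_cases hc : (∃ j : ℕ, m = j * a) ∧ ∃ j' : ℕ, m' = j' * a
      · obtain ⟨⟨j, rfl⟩, j', rfl⟩ := hc
        have h1 : (((j : ℤ) * a + j' * a) / a).toNat = j + j' := by
          have h2 : (j : ℤ) * a + j' * a = ((j + j' : ℕ) : ℤ) * a := by
            push_cast
            ring
          rw [h2, hdiv]
        rw [h1, hdiv, hdiv, monomial_mul_monomial, fl_mul]
        congr 1
        refine Finset.sum_eq_single (j, j') ?_ ?_
        · rintro ⟨i, i'⟩ hi hne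
          by_contra h0
          have h3 : (j : ℤ) * a = i * a := fl_eq_zero hx hD hh (left_ne_zero_of_mul h0)
          have h4 : (j' : ℤ) * a = i' * a := fl_eq_zero hx hD hh' (right_ne_zero_of_mul h0)
          have h5 := mul_right_cancel₀ ha.ne' h3
          have h6 := mul_right_cancel₀ ha.ne' h4
          apply hne
          rw [Prod.mk.injEq]
          constructor
          · exact_mod_cast h5.symm
          · exact_mod_cast h6.symm
        · intro h0
          exact absurd (Finset.HasAntidiagonal.mem_antidiagonal.2 (rfl : j + j' = j + j')) h0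
      · have h1 : fl x D ((m + m') / a).toNat (h * h') = 0 := by
          rw [fl_mul]
          refine Finset.sum_eq_zero fun ij _ => ?_
          by_contra h0
          exact hc ⟨⟨_, fl_eq_zero hx hD hh (left_ne_zero_of_mul h0)⟩,
            ⟨_, fl_eq_zero hx hD hh' (right_ne_zero_of_mul h0)⟩⟩
        rw [h1, map_zero, monomial_mul_monomial]
        have h2 : fl x D (m / a).toNat h * fl x D (m' / a).toNat h' = 0 := by
          by_contra h0
          exact hc ⟨⟨_, fl_eq_zero hx hD hh (left_ne_zero_of_mul h0)⟩,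
            ⟨_, fl_eq_zero hx hD hh' (right_ne_zero_of_mul h0)⟩⟩
        rw [h2, map_zero])
  refine ⟨ψ, fun d m h hh j => ?_⟩
  rw [hψ (d, m) h hh]
  change (monomial (m / a).toNat (fl x D (m / a).toNat h)).coeff j = _
  rw [coeff_monomial]
  split_ifs with hj
  · rw [hj]
  · by_contra h0
    have h1 := fl_eq_zero hx hD hh (Ne.symm h0)
    apply hj
    rw [h1, hdiv]

/-- The orbit is a weak curve of some degree `k`, and it ends at a fixed point of weight `k a`. -/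
theorem exists_orbit_chain [GradedAlgebra ℬ] (hr : Refines 𝒜 ℬ) (hX : IsProjectiveManifold 𝒜)
    {x : R →ₐ[ℂ] ℂ} (hx0 : NV 𝒜 x) (hx : T.IsFixed ℬ x 0) {D : Derivation ℂ R R} {a : ℤ}
    (ha : 0 < a) (hD : ∀ (d : ℕ) (m : ℤ), ∀ h ∈ ℬ (d, m), D h ∈ ℬ (d, m - a)) {h1 : R} {m1 : ℤ}
    (hh1 : h1 ∈ ℬ (1, m1)) (hne : x (D h1) ≠ 0) :
    ∃ (k : ℕ) (q : R →ₐ[ℂ] ℂ), 1 ≤ k ∧ NV 𝒜 q ∧ T.IsFixed ℬ q (k * a) ∧ Ch 𝒜 ℂ k x q := by
  have hX' := hr.isTorusManifold hX
  obtain ⟨ψ, hψ⟩ := exists_orbit (ℬ := ℬ) hx ha hD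
  set K : Set ℕ := {j | ∃ m : ℤ, ∃ h ∈ ℬ (1, m), fl x D j h ≠ 0} with hK
  obtain ⟨b, hb⟩ := (T.finite_weights hX').bddAbove
  have hbd : BddAbove K := by
    refine ⟨b.toNat, ?_⟩
    rintro j ⟨m, h, hh, h0⟩
    have h2 := fl_eq_zero hx hD hh h0
    have h3 : m ≤ b := hb ⟨h, hh, fun h4 => h0 (by rw [h4, map_zero])⟩
    have h4 : (j : ℤ) ≤ m := by
      rw [h2]
      nlinarith
    omega
  have h1K : 1 ∈ K := by
    refine ⟨m1, h1, hh1, ?_⟩
    rw [fl_apply]
    simpa using hne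
  obtain ⟨m0, h0, hh0, hf0⟩ := Nat.sSup_mem ⟨1, h1K⟩ hbd
  have hmax : ∀ j ∈ K, j ≤ sSup K := fun j hj => le_csSup hbd hj
  have hk1 : 1 ≤ sSup K := hmax 1 h1K
  generalize sSup K = k at hf0 hmax hk1
  -- the degree
  have hdeg : ∀ (d : ℕ) (m : ℤ), ∀ h ∈ ℬ (d, m), (ψ h).natDegree ≤ d * k := by
    have key : ∀ d m y, T.IsProd ℬ d m y → (ψ y).natDegree ≤ d * k := by
      intro d m y hy
      induction hy with
      | one => rw [map_one, natDegree_one]; exact Nat.zero_le _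
      | @mul d m w y g hy hg ih =>
        have h2 : (ψ g).natDegree ≤ k := by
          rw [natDegree_le_iff_coeff_eq_zero]
          intro j hj
          rw [hψ 1 w g hg]
          by_contra h3
          exact absurd (hmax j ⟨w, g, hg, h3⟩) (not_le.2 hj)
        rw [map_mul, Nat.succ_mul]
        exact natDegree_mul_le.trans (Nat.add_le_add ih h2)
    intro d m h hh
    have h2 : Submodule.span ℂ {y | T.IsProd ℬ d m y} ≤
        (degreeLE ℂ ((d * k : ℕ) : WithBot ℕ)).comap ψ.toLinearMap := by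
      refine Submodule.span_le.2 fun y hy => ?_
      exact mem_degreeLE.2 (natDegree_le_iff_degree_le.1 (key d m y hy))
    exact natDegree_le_iff_degree_le.2 (mem_degreeLE.1 (h2 (T.mem_span_isProd hX'.gen hh)))
  have hdegA : Deg 𝒜 k ψ := by
    intro d h hh
    have h2 : 𝒜 d ≤ (degreeLE ℂ ((d * k : ℕ) : WithBot ℕ)).comap ψ.toLinearMap :=
      hr.sub fun m y hy => mem_degreeLE.2 (natDegree_le_iff_degree_le.1 (hdeg d m y hy))
    exact natDegree_le_iff_degree_le.2 (mem_degreeLE.1 (h2 hh))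
  -- the end point
  obtain ⟨q, hq⟩ := T.exists_algHom ℬ (B := ℂ)
    (fun i => (lcoeff ℂ (i.1 * k)).comp ψ.toLinearMap) (by
      change (ψ 1).coeff (0 * k) = 1
      rw [map_one, zero_mul, coeff_one_zero]) (by
      rintro ⟨d, m⟩ ⟨d', m'⟩ h hh h' hh'
      change (ψ (h * h')).coeff ((d + d') * k) = (ψ h).coeff (d * k) * (ψ h').coeff (d' * k)
      rw [map_mul, add_mul]
      exact coeff_mul_add_eq_of_natDegree_le (hdeg d m h hh) (hdeg d' m' h' hh'))
  have hq1 : ∀ (d : ℕ) (m : ℤ), ∀ h ∈ ℬ (d, m), q h = (ψ h).coeff (d * k) :=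
    fun d m h hh => hq (d, m) h hh
  have hqA : ∀ d : ℕ, ∀ h ∈ 𝒜 d, (ψ h).coeff (d * k) = q h := by
    intro d h hh
    have h2 : 𝒜 d ≤ LinearMap.eqLocus ((lcoeff ℂ (d * k)).comp ψ.toLinearMap) q.toLinearMap :=
      hr.sub fun m y hy => (hq1 d m y hy).symm
    exact h2 hh
  have hxA : ∀ d : ℕ, ∀ h ∈ 𝒜 d, (ψ h).coeff 0 = x h := by
    intro d h hh
    have h2 : 𝒜 d ≤ LinearMap.eqLocus ((lcoeff ℂ 0).comp ψ.toLinearMap) x.toLinearMap := by
      refine hr.sub fun m y hy => ?_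
      change (ψ y).coeff 0 = x y
      rw [hψ d m y hy, fl_apply]
      simp
    exact h2 hh
  have hqnv : NV 𝒜 q := by
    refine ⟨h0, hr.le 1 m0 hh0, ?_⟩
    rw [hq1 1 m0 h0 hh0, one_mul, hψ 1 m0 h0 hh0]
    exact hf0
  refine ⟨k, q, hk1, hqnv, ?_, ?_⟩
  · intro d m h hh h2
    rw [hq1 d m h hh, hψ d m h hh] at h2
    rw [fl_eq_zero hx hD hh h2, nsmul_eq_mul]
    push_cast
    ring
  · have h2 := Ch.step (𝒜 := 𝒜) 0 k x x q ψ (Ch.refl x hx0) hqnv hdegA
      ⟨1, one_ne_zero, fun d h hh => by rw [one_pow, one_mul]; exact hxA d h hh⟩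
      ⟨1, one_ne_zero, fun d h hh => by rw [one_pow, one_mul]; exact hqA d h hh⟩
    rwa [zero_add] at h2

end Vale.Agent.P280.S
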