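import Vale.Agent.P280.S.Defs
import Vale.Agent.P280.T.Tools2
import Vale.Agent.P280.T.Defs

/-!
P280 S, row E: transfer between the grading by the degree and a refinement of it by the weights of
a one-parameter group.
-/

open DirectSum

namespace Vale.Agent.P280.S

variable {R : Type} [CommRing R] [Algebra ℂ R]

/-- `ℬ` refines the grading `𝒜`. -/
structure Refines (𝒜 : ℕ → Submodule ℂ R) (ℬ : ℕ × ℤ → Submodule ℂ R) : Prop where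
  le : ∀ (d : ℕ) (m : ℤ), ℬ (d, m) ≤ 𝒜 d
  ge : ∀ d : ℕ, 𝒜 d ≤ ⨆ m : ℤ, ℬ (d, m)

variable {𝒜 : ℕ → Submodule ℂ R} {ℬ : ℕ × ℤ → Submodule ℂ R}

theorem Refines.sub (hr : Refines 𝒜 ℬ) {d : ℕ} {W : Submodule ℂ R} (h : ∀ m : ℤ, ℬ (d, m) ≤ W) :
    𝒜 d ≤ W := (hr.ge d).trans (iSup_le h)

theorem Refines.isVertex (hr : Refines 𝒜 ℬ) {p : R →ₐ[ℂ] ℂ} :
    T.IsVertex ℬ p ↔ IsVertex 𝒜 p := by
  constructor
  · intro hp d hd h hh
    have h1 : 𝒜 d ≤ LinearMap.ker p.toLinearMap := hr.sub fun m x hx => hp d m hd x hx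
    exact h1 hh
  · intro hp d m hd h hh
    exact hp d hd h (hr.le d m hh)

theorem Refines.isTorusManifold (hr : Refines 𝒜 ℬ) (hX : IsProjectiveManifold 𝒜) :
    T.IsTorusManifold ℬ where
  finiteType := hX.finiteType
  domain := hX.domain
  normal := hX.normal
  zero := fun m h hh => hX.zero h (hr.le 0 m hh)
  gen := by
    rw [← top_le_iff, ← hX.gen]
    refine Algebra.adjoin_le fun h hh => ?_
    have h1 : 𝒜 1 ≤ Subalgebra.toSubmodule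
        (Algebra.adjoin ℂ {h : R | ∃ m : ℤ, h ∈ ℬ (1, m)}) :=
      hr.sub fun m x hx => Algebra.subset_adjoin ⟨m, hx⟩
    exact h1 hh
  nonempty := by
    obtain ⟨p, hp⟩ := hX.nonempty
    exact ⟨p, fun h => hp (hr.isVertex.1 h)⟩
  smooth := fun p hp P hP hPp => by
    have := hP
    exact hX.smooth p (fun h => hp (hr.isVertex.2 h)) P hPp

theorem Refines.nef (hr : Refines 𝒜 ℬ) (hN : NefOnRationalCurves 𝒜) :
    T.NefOnRationalCurves ℬ := by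
  intro e φ h1 h2 a ha v hv
  have hc : IsCurve 𝒜 e φ := by
    refine ⟨fun d h hh => ?_, fun b hb hver => h2 b hb (hr.isVertex.2 hver)⟩
    have h3 : 𝒜 d ≤ (MvPolynomial.homogeneousSubmodule (Fin 2) ℂ (d * e)).comap φ.toLinearMap :=
      hr.sub fun m x hx => (MvPolynomial.mem_homogeneousSubmodule _ _).2 (h1 d m x hx)
    exact (MvPolynomial.mem_homogeneousSubmodule _ _).1 (h3 hh)
  obtain ⟨δ, hδ1, hδ2, hδ3⟩ := hN e φ hc a ha v hv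
  exact ⟨δ, hδ1, fun d m h hh => hδ2 d h (hr.le d m hh), hδ3⟩

theorem Refines.homogeneous (hr : Refines 𝒜 ℬ) (h : T.IsHomogeneousManifold ℬ) :
    IsHomogeneousManifold 𝒜 := by
  intro p hp v hv
  obtain ⟨D, hD, hDv⟩ := h p (fun h => hp (hr.isVertex.1 h)) v hv
  refine ⟨D, fun d x hx => ?_, hDv⟩
  have h1 : 𝒜 d ≤ (𝒜 d).comap (D : R →ₗ[ℂ] R) := hr.sub fun m y hy =>
    (iSup_le fun m' => hr.le d m' : (⨆ m' : ℤ, ℬ (d, m')) ≤ 𝒜 d) (hD d m y hy)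
  exact h1 hx

/-- The form of transitivity for a refined grading. -/
theorem Refines.transitive (hr : Refines 𝒜 ℬ)
    (h : ∀ z z' : R →ₐ[ℂ] ℂ, ¬ T.IsVertex ℬ z → ¬ T.IsVertex ℬ z' → ∃ F : R ≃ₐ[ℂ] R,
      (∀ (d : ℕ) (m : ℤ), ∀ h ∈ ℬ (d, m), F h ∈ ⨆ m' : ℤ, ℬ (d, m')) ∧ ∀ h, z' h = z (F h)) :
    IsTransitive 𝒜 := by
  intro z z' hz hz'
  obtain ⟨F, hF, hFz⟩ := h z z' (fun h => hz (hr.isVertex.1 h)) (fun h => hz' (hr.isVertex.1 h))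
  refine ⟨F, fun d x hx => ?_, hFz⟩
  have h1 : 𝒜 d ≤ (𝒜 d).comap F.toLinearMap := hr.sub fun m y hy =>
    (iSup_le fun m' => hr.le d m' : (⨆ m' : ℤ, ℬ (d, m')) ≤ 𝒜 d) (hF d m y hy)
  exact h1 hx

theorem NV.not_isVertex {p : R →ₐ[ℂ] ℂ} (h : NV 𝒜 p) : ¬ IsVertex 𝒜 p := by
  obtain ⟨x, hx, hne⟩ := h
  exact fun hv => hne (hv 1 one_pos x hx)

theorem nv_of_not_isVertex (hX : IsProjectiveManifold 𝒜) [GradedAlgebra ℬ] (hr : Refines 𝒜 ℬ)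
    {p : R →ₐ[ℂ] ℂ} (h : ¬ T.IsVertex ℬ p) : NV 𝒜 p := by
  obtain ⟨m, x, hx, hne⟩ := (T.not_isVertex_iff (hr.isTorusManifold hX).gen p).1 h
  exact ⟨x, hr.le 1 m hx, hne⟩

/-- Chains of weak curves can be composed. -/
theorem Ch.comp {k : Type} [Field k] [Algebra ℂ k] {n m : ℕ} {p q r : R →ₐ[ℂ] k}
    (h1 : Ch 𝒜 k n p q) (h2 : Ch 𝒜 k m q r) : Ch 𝒜 k (n + m) p r := by
  induction h2 with
  | refl q hq => rwa [add_zero]
  | step m e q q' q'' ψ _ h4 h5 h6 h7 ih =>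
    rw [← add_assoc]
    exact Ch.step _ _ _ _ _ ψ (ih h1) h4 h5 h6 h7

end Vale.Agent.P280.S
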